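import Mathlib.Algebra.GroupWithZero.Action.Pointwise.Finset
import Mathlib.Algebra.Order.Archimedean.Real.Hom
import Mathlib.Algebra.Ring.Action.Pointwise.Finset
import Mathlib.Algebra.Ring.IsFormallyReal
import Mathlib.Analysis.Calculus.BumpFunction.FiniteDimension
import Mathlib.Analysis.Calculus.ContDiff.FiniteDimension
import Mathlib.Analysis.Calculus.ImplicitContDiff
import Mathlib.Analysis.Calculus.LHopital
import Mathlib.Analysis.Calculus.ParametricIntervalIntegral
import Mathlib.Analysis.Convex.Caratheodory
import Mathlib.Analysis.Normed.Affine.MazurUlam
import Mathlib.Analysis.SpecialFunctions.Log.ENNRealLogExp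
import Mathlib.Data.Finset.DenselyOrdered
import Mathlib.Geometry.Manifold.Algebra.Structures
import Mathlib.Geometry.Manifold.Riemannian.Basic
import Mathlib.Geometry.Manifold.Sheaf.Basic
import Mathlib.Geometry.Manifold.VectorField.Pullback
import Mathlib.LinearAlgebra.Matrix.Swap
import Mathlib.LinearAlgebra.Reflection
import Mathlib.MeasureTheory.Integral.IntervalIntegral.Periodic
import Mathlib.MeasureTheory.Measure.Hausdorff
import Mathlib.MeasureTheory.Measure.Lebesgue.VolumeOfBalls
import Mathlib.MeasureTheory.Measure.RegularityCompacts
import Mathlib.Order.CompletePartialOrder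
import Mathlib.Probability.Process.Adapted
import Mathlib.RingTheory.DedekindDomain.SInteger
import Mathlib.RingTheory.Etale.Weakly
import Mathlib.RingTheory.Flat.TorsionFree
import Mathlib.RingTheory.PicardGroup
import Mathlib.RingTheory.RegularLocalRing.Defs
import Mathlib.RingTheory.SimpleRing.Principal
import Mathlib.RingTheory.TotallySplit
import Mathlib.Tactic
import Mathlib.Topology.Algebra.Module.Cardinality
import Mathlib.Topology.Compactness.CompactlyGeneratedSpace
import Mathlib.Topology.Filter
import Mathlib.Topology.MetricSpace.Sequences
import Mathlib.Topology.Order.LowerUpperTopology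
import Mathlib.Topology.UniformSpace.Uniformizable

/-! The part of Mathlib that the development of this folder uses. -/
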